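import Vale.Agent.P244I69.Main
import Vale.Agent.N244X.Final

/-!
P244: singular Ricci flows with bounded scalar curvature in every dimension `n ≥ 50`.
The starting files have them for `n ≥ 10003`; the dimensions `50 ≤ n ≤ 10002` are new.
-/

namespace Vale.Agent.Results.P244.A0LowDimension

open Vale.Agent.P244I

theorem result :
    ∀ n : ℕ, 50 ≤ n → ∃ (M : Type) (_ : TopologicalSpace M) (_ : T2Space M)
      (_ : CompactSpace M) (_ : ConnectedSpace M) (_ : ChartedSpace (Euc n) M)
      (_ : Smooth (Euc n) M) (T : ℝ) (g : ℝ → Met (Euc n) M),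
      0 < T ∧ IsRicciFlow g T ∧ BoundedScal g T ∧ ¬ ExtendsPast g T := by
  intro n hn
  obtain ⟨M, _, _, _, _, _, _, hM⟩ := counter (P244Z.W.counterexample_all hn)
  by_contra hcon
  refine hM fun T g h1 h2 h3 => ?_
  by_contra h4
  exact hcon ⟨M, _, ‹_›, ‹_›, ‹_›, _, ‹_›, T, g, h1, h2, h3, h4⟩

end Vale.Agent.Results.P244.A0LowDimension
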